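import Vale.Agent.Lib.P338.Reduction

/-!
# P338: integer multiplication is at least as hard as matrix transposition

Reduction of the transposition of binary matrices to integer multiplication on deterministic
multitape Turing machines, and the resulting lower bound for integer multiplication.
-/

namespace Vale.Agent.Results.P338.MulVsTranspose

open Vale.Agent.P338

theorem result :
    -- the reduction (unconditional)
    (∀ A : Machine, A.Multiplies →
      ∃ (B : Machine) (C : ℕ), B.Transposes ∧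
        ∀ k r n T : ℕ, 1 ≤ k → Odd r → n = 2 ^ (2 ^ k * r) →
          (∀ ν, 32 * n ^ 2 ≤ ν → ν ≤ 48 * n ^ 2 → A.mulTime ν ≤ T) →
          B.transTime n ≤ C * ((2 ^ k) ^ 2 * (T + n ^ 2) + n ^ 2 * r)) ∧
    -- the lower bound for multiplication, if transposition needs `Ω(n ^ 2 * log n)` steps
    ((∀ B : Machine, B.Transposes →
        ∃ c : ℝ, 0 < c ∧ ∃ N : ℕ, ∀ n ≥ N, c * (n : ℝ) ^ 2 * Real.log n ≤ B.transTime n) →
      ∀ A : Machine, A.Multiplies →
        -- near every large `n` there is a length at which the bound holds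
        (∃ c : ℝ, 0 < c ∧ ∃ C N : ℕ, ∀ n ≥ N, ∃ ν, ν ≤ n ∧ n ≤ C * ν ∧
          c * (n : ℝ) * Real.log n ≤ A.mulTime ν) ∧
        -- the bound for factors with at most `n` digits
        (∃ c : ℝ, 0 < c ∧ ∃ N : ℕ, 2 ≤ N ∧ ∀ n ≥ N,
          c * (n : ℝ) * Real.log n ≤ ((Finset.range (n + 1)).sup A.mulTime : ℕ)) ∧
        -- the bound at every large length, if the running time is essentially monotone
        ((∀ C : ℕ, ∃ D : ℝ, ∀ m n : ℕ, m ≤ n → n ≤ C * m →
            (A.mulTime m : ℝ) ≤ D * A.mulTime n) →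
          ∃ c : ℝ, 0 < c ∧ ∃ N : ℕ, 2 ≤ N ∧ ∀ n ≥ N,
            c * (n : ℝ) * Real.log n ≤ A.mulTime n)) := by
  refine ⟨reduction, fun hyp A hA => ?_⟩
  obtain ⟨c, hc, C, N, h⟩ := lower hyp A hA
  refine ⟨⟨c, hc, C, N, h⟩, ⟨c, hc, max N 2, le_max_right _ _, fun n hn => ?_⟩, fun hreg => ?_⟩
  · obtain ⟨ν, h1, _, h3⟩ := h n (le_trans (le_max_left _ _) hn)
    refine h3.trans ?_
    exact_mod_cast Finset.le_sup (f := A.mulTime) (Finset.mem_range.2 (by omega))
  · obtain ⟨D, hD⟩ := hreg C
    refine ⟨c / max D 1, by positivity, max N 2, le_max_right _ _, fun n hn => ?_⟩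
    obtain ⟨ν, h1, h2, h3⟩ := h n (le_trans (le_max_left _ _) hn)
    have h4 : c * (n : ℝ) * Real.log n ≤ max D 1 * A.mulTime n :=
      (h3.trans (hD ν n h1 h2)).trans
        (mul_le_mul_of_nonneg_right (le_max_left _ _) (Nat.cast_nonneg _))
    rw [div_mul_eq_mul_div, div_mul_eq_mul_div, div_le_iff₀ (by positivity)]
    linarith

end Vale.Agent.Results.P338.MulVsTranspose
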